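import Vale.Agent.P215Z.Main

/-!
# P215: the free group of rank two is not good
-/

namespace Vale.Agent.Results.P215.AFreeGroupNotGood

open Vale.Agent.P215.H788

/-- (1) **The free group of rank two is not good.**
(2) No group which contains a free group of rank two is good.
(3) Strong form: for a capped grope with both surfaces of genus one and three double points, and
a homomorphism `φ` to the free group of rank two, every continuous disc in the thickening which is
bounded by the attaching circle and whose interior misses the attaching region has a double point
loop on which `φ` is not trivial. -/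
theorem result :
    ¬ Good (FreeGroup (Fin 2)) ∧
    (∀ (Γ : Type) [Group Γ] (ι : FreeGroup (Fin 2) →* Γ), Function.Injective ι → ¬ Good Γ) ∧
    ∃ (G : CappedGrope) (φ : FundamentalGroup G.Thickening G.basePt →* FreeGroup (Fin 2)),
      G.genera = [1] ∧ G.plumbings.length = 3 ∧
      ∀ f : C(Disc, G.Thickening), (∀ z : Circ, f z.toDisc = G.attach (z, Disc.zero)) →
        (∀ x p, f x = G.attach p → ‖x.1‖ = 1) →
        ∃ (x y : Disc) (h : f x = f y) (c : Path G.basePt (f x)) (l : Path x y),
          φ (FundamentalGroup.fromPath (Path.Homotopic.Quotient.mk
            ((c.trans ((l.map f.continuous).cast rfl h)).trans c.symm))) ≠ 1 := by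
  refine ⟨P215Z.not_good_of_inj _ (MonoidHom.id _) Function.injective_id,
    P215Z.not_good_of_inj, ?_⟩
  obtain ⟨φ, hφ⟩ := P215Z.exists_singular
  exact ⟨P215Z.G0, φ, rfl, rfl, hφ⟩

end Vale.Agent.Results.P215.AFreeGroupNotGood
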